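import Vale.Agent.P237.Quant.TailData.N32.tailN32N0Part0
import Vale.Agent.P237.Quant.TailData.N32.tailN32N0Part1
import Vale.Agent.P237.Quant.TailData.N32.tailN32N0Part2
import Vale.Agent.P237.Quant.TailData.N32.tailN32N0Part3
import Vale.Agent.P237.Quant.TailData.N32.tailN32N0Part4

/-!
Tail calibration tailN32N0 in dimension 32. The check. Generated data, checked by the kernel.
-/

set_option maxRecDepth 100000
set_option linter.all false

namespace Vale.Agent.P237.Quant.TailData

open TailCert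


/-- The calibration. -/
noncomputable def tailN32N0 : Cfg :=
  tailN32N0Base.withIvals (List.flatten [tailN32N0L0, tailN32N0L1, tailN32N0L2, tailN32N0L3, tailN32N0L4, tailN32N0L5, tailN32N0L6, tailN32N0L7, tailN32N0L8, tailN32N0L9, tailN32N0L10, tailN32N0L11, tailN32N0L12, tailN32N0L13, tailN32N0L14, tailN32N0L15, tailN32N0L16, tailN32N0L17])

theorem tailN32N0_parts : [tailN32N0L0, tailN32N0L1, tailN32N0L2, tailN32N0L3, tailN32N0L4, tailN32N0L5, tailN32N0L6, tailN32N0L7, tailN32N0L8, tailN32N0L9, tailN32N0L10, tailN32N0L11, tailN32N0L12, tailN32N0L13, tailN32N0L14, tailN32N0L15, tailN32N0L16, tailN32N0L17].Forall fun l => tailN32N0Base.partUsed tailN32N0Used l = true := by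
  simp only [List.forall_cons, List.Forall]
  exact ⟨tailN32N0L0_ok, tailN32N0L1_ok, tailN32N0L2_ok, tailN32N0L3_ok, tailN32N0L4_ok, tailN32N0L5_ok, tailN32N0L6_ok, tailN32N0L7_ok, tailN32N0L8_ok, tailN32N0L9_ok, tailN32N0L10_ok, tailN32N0L11_ok, tailN32N0L12_ok, tailN32N0L13_ok, tailN32N0L14_ok, tailN32N0L15_ok, tailN32N0L16_ok, tailN32N0L17_ok⟩

theorem tailN32N0_check : tailN32N0.check = true :=
  Cfg.check_of_parts (by decide +kernel) tailN32N0_parts

end Vale.Agent.P237.Quant.TailData
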