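import Vale.Agent.P237.Quant.TailData.N32.tailN32P0Part0
import Vale.Agent.P237.Quant.TailData.N32.tailN32P0Part1
import Vale.Agent.P237.Quant.TailData.N32.tailN32P0Part2
import Vale.Agent.P237.Quant.TailData.N32.tailN32P0Part3
import Vale.Agent.P237.Quant.TailData.N32.tailN32P0Part4

/-!
Tail calibration tailN32P0 in dimension 32. The check. Generated data, checked by the kernel.
-/

set_option maxRecDepth 100000
set_option linter.all false

namespace Vale.Agent.P237.Quant.TailData

open TailCert


/-- The calibration. -/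
noncomputable def tailN32P0 : Cfg :=
  tailN32P0Base.withIvals (List.flatten [tailN32P0L0, tailN32P0L1, tailN32P0L2, tailN32P0L3, tailN32P0L4, tailN32P0L5, tailN32P0L6, tailN32P0L7, tailN32P0L8, tailN32P0L9, tailN32P0L10, tailN32P0L11, tailN32P0L12, tailN32P0L13, tailN32P0L14, tailN32P0L15, tailN32P0L16])

theorem tailN32P0_parts : [tailN32P0L0, tailN32P0L1, tailN32P0L2, tailN32P0L3, tailN32P0L4, tailN32P0L5, tailN32P0L6, tailN32P0L7, tailN32P0L8, tailN32P0L9, tailN32P0L10, tailN32P0L11, tailN32P0L12, tailN32P0L13, tailN32P0L14, tailN32P0L15, tailN32P0L16].Forall fun l => tailN32P0Base.partUsed tailN32P0Used l = true := by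
  simp only [List.forall_cons, List.Forall]
  exact ⟨tailN32P0L0_ok, tailN32P0L1_ok, tailN32P0L2_ok, tailN32P0L3_ok, tailN32P0L4_ok, tailN32P0L5_ok, tailN32P0L6_ok, tailN32P0L7_ok, tailN32P0L8_ok, tailN32P0L9_ok, tailN32P0L10_ok, tailN32P0L11_ok, tailN32P0L12_ok, tailN32P0L13_ok, tailN32P0L14_ok, tailN32P0L15_ok, tailN32P0L16_ok⟩

theorem tailN32P0_check : tailN32P0.check = true :=
  Cfg.check_of_parts (by decide +kernel) tailN32P0_parts

end Vale.Agent.P237.Quant.TailData
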